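import Vale.Agent.P338.R2.H755.Bp.Inst
import Vale.Agent.P338.R2.H778.Tr.Srch5

/-!
P338, stage 3: the parameters of the batch multiplication.
-/

namespace Vale.Agent.P338.R2.H755.Bp

open Vale.Agent.P338.R2.H898 Vale.Agent.P338.R2.H784 Vale.Agent.P338.R2.H784.Fp
open Vale.Agent.P338.R2.H784.Bp
open Vale.Agent.P338.R2.H778.Tr (SF sI sO srch Csrch run_srch)
open Vale.Agent.P338.R2.H968.CallEnv (mem0 callC)
open Function (update)

set_option linter.unusedSectionVars false
set_option linter.constructorNameAsVariable false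

/-- The files of the search. -/
def iS : SF → PF
  | .b => .b
  | .D => .D
  | .Q => .Q
  | .om => .om
  | .nu => .nu
  | .iv => .iv
  | .m => .m
  | .mum => .mum
  | .s i => .s i

theorem iS_inj : Function.Injective iS := by
  intro a b h
  cases a <;> cases b <;> simp_all [iS]

theorem extend_sO {α : Type} {u : α} {bit : Bool → α} {W n q om nu iv : ℕ} :
    Function.extend iS (sO u bit (bB W) (dB W) q om nu iv) (rv u (v1 W n)) =
      parO u bit W n q om nu iv := by
  funext x
  by_cases hx : ∃ y, iS y = x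
  · obtain ⟨y, rfl⟩ := hx
    rw [iS_inj.extend_apply]
    cases y <;> rfl
  · rw [Function.extend_apply' _ _ _ hx]
    cases x
    case b => exact absurd ⟨.b, rfl⟩ hx
    case D => exact absurd ⟨.D, rfl⟩ hx
    case Q => exact absurd ⟨.Q, rfl⟩ hx
    case om => exact absurd ⟨.om, rfl⟩ hx
    case nu => exact absurd ⟨.nu, rfl⟩ hx
    case iv => exact absurd ⟨.iv, rfl⟩ hx
    case m => exact absurd ⟨.m, rfl⟩ hx
    case mum => exact absurd ⟨.mum, rfl⟩ hx
    case s i => exact absurd ⟨.s i, rfl⟩ hx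
    all_goals rfl

section

variable {M F α : Type} [DecidableEq F] {d u : α}

/-- The parameters. -/
noncomputable def par (j : PF → F) (u : α) (bit : Bool → α) : Prog M F α :=
  .seq (progR j u) (srch (fun x => j (iS x)) u bit)

/-- The constant. -/
noncomputable def Cpar : ℕ := Csrch + 10000

theorem sq_le_four_pow (W : ℕ) : W * W ≤ 4 ^ W := by
  have h : W ≤ 2 ^ W := Nat.lt_two_pow_self.le
  calc W * W ≤ 2 ^ W * 2 ^ W := Nat.mul_le_mul h h
    _ = 4 ^ W := by rw [← mul_pow]; norm_num

theorem run_par {j : PF → F} (hj : Function.Injective j) {bit : Bool → α} {W n : ℕ}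
    (hW : 1024 ≤ W) {m : M} {z : F → Zip α} (hz : ∀ x, z (j x) = parI u W n x) :
    ∃ q om nu iv, Prm W q om nu iv ∧ Prog.Run d (par j u bit) ⟨m, z⟩ (Cpar * (4 ^ W + n))
      ⟨m, Function.extend j (parO u bit W n q om nu iv) z⟩ := by
  have h1 := run_progR (M := M) (d := d) (u := u) hj (W := W) (n := n) (by omega) (m := m) hz
  obtain ⟨q, om, nu, iv, hP, h2⟩ := run_srch (M := M) (d := d) (u := u)
    (j := fun x => j (iS x)) (hj.comp iS_inj) (bit := bit) hW (m := m)
    (z := Function.extend j (rv u (v1 W n)) z) (by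
      intro x
      rw [hj.extend_apply]
      cases x <;> rfl)
  refine ⟨q, om, nu, iv, hP, ?_⟩
  rw [extend_extend iS_inj hj, extend_sO] at h2
  refine (h1.seq h2).mono ?_
  have h3 := sq_le_four_pow W
  have h4 : 2400 * W ≤ 3 * (W * W) := by nlinarith
  have h5 : 1024 ≤ W * W := by nlinarith
  have e : Cpar * (4 ^ W + n) = Csrch * 4 ^ W + Csrch * n + 10000 * 4 ^ W + 10000 * n := by
    unfold Cpar
    ring
  have e2 : 20 * W * W = 20 * (W * W) := by ring
  rw [e, e2]
  have h6 : 0 ≤ Csrch * n := Nat.zero_le _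
  generalize 4 ^ W = P at *
  generalize W * W = Q at *
  generalize Csrch * P = R at *
  generalize Csrch * n = T at *
  omega

end

section

variable {A A₀ : MTM} {Y : Type} [DecidableEq (LG A.Tape A₀.Tape Y)]

theorem parOK : ParOK (A := A) (A₀ := A₀) (Y := Y) (par jP .u bt) Cpar := by
  intro W S hW hS _
  obtain ⟨q, om, nu, iv, hP, h⟩ := run_par (d := dd A A₀) (u := .u) (bit := bt)
    (jP_inj (T := A.Tape) (T₀ := A₀.Tape) (Y := Y)) (W := W) (n := S.n) hW
    (m := (mem0 A, mem0 A₀)) (z := z2 .u S (bN A A₀)) (by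
      intro x
      rw [z2_parI, hS])
  refine ⟨q, om, nu, iv, hP, ?_⟩
  rw [extend_parO hS rfl] at h
  exact h

end

end Vale.Agent.P338.R2.H755.Bp
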