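import Vale.Agent.P338.R2.H778.Fp.Rul

/-!
P338, stage 3: division of rulers.
-/

namespace Vale.Agent.P338.R2.H755.Bp

open Vale.Agent.P338.R2.H898 Vale.Agent.P338.R2.H784
open Vale.Agent.P338.R2.H778.Fp (RL RP rp_of_tri)
open Function (update)

set_option linter.unusedSectionVars false

variable {M F α : Type} [DecidableEq F] {d u : α}

/-- `c := |a| / |b|` for `1 ≤ |b|`. -/
def divU (a b c : F) (u : α) : Prog M F α :=
  .seq (clr c) (.seq (forU a (.seq (op b .right) (.ite (fun _ r => (r b).isSome) nop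
    (.seq (op b .rew) (put c u))))) (.seq (op b .rew) (op c .rew)))

theorem tri_divU {a b c : F} (hab : a ≠ b) (hac : a ≠ c) (hbc : b ≠ c) {s : Store M F α}
    {m n : ℕ} (hn : 1 ≤ n) (ha : Len u 0 m (s.z a)) (hb : Len u 0 n (s.z b)) :
    Tri d (divU a b c u) s (7 * m + 6) (fun s' => Len u 0 (m / n) (s'.z c) ∧
      Len u 0 m (s'.z a) ∧ Len u 0 n (s'.z b) ∧ Keep [a, b, c] s s') := by
  refine (Tri.seq (t' := 7 * m + 4) (tri_clr c s) ?_).cost (by omega)
  rintro s1 ⟨h1, k1⟩
  have ha1 : Len u 0 m (s1.z a) := k1.len (by simp [hac]) ha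
  have hb1 : Len u 0 n (s1.z b) := k1.len (by simp [hbc]) hb
  have hc1 : Len u 0 0 (s1.z c) := by
    rw [h1]
    exact Len.nil
  have key := tri_forU (d := d) (M := M) (α := α) (u := u) (f := a)
    (p := .seq (op b .right) (.ite (fun _ r => (r b).isSome) nop (.seq (op b .rew) (put c u))))
    (n := m) (fun i s' => Len u (i % n) (n - i % n) (s'.z b) ∧ Len u (i / n) 0 (s'.z c) ∧
      Keep [a, b, c] s s') 5 ?_ ?_ ha1 ?_
  · refine (Tri.seq (t' := 2) key ?_).cost (by omega)
    rintro s2 ⟨h2, h3, h4, k2⟩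
    refine Tri.seq (t' := 1) (tri_rew h3) ?_
    rintro s3 ⟨h5, k3⟩
    refine (tri_rew (k3.len (by simp [hbc.symm]) h4)).post ?_
    rintro s4 ⟨h6, k4⟩
    have hmod : m % n < n := Nat.mod_lt _ (by omega)
    refine ⟨by simpa using h6, k4.len (by simp [hac]) (k3.len (by simp [hab]) h2), ?_, ?_⟩
    · have e : m % n + (n - m % n) = n := by omega
      rw [e] at h5
      exact k4.len (by simp [hbc]) h5
    · exact k2.trans ((k3.mono (by simp)).trans (k4.mono (by simp)))
  · rintro i s' v ⟨g1, g2, g3⟩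
    refine ⟨?_, ?_, ?_⟩
    · simpa [Function.update_of_ne hab.symm] using g1
    · simpa [Function.update_of_ne hac.symm] using g2
    · exact g3.trans ⟨rfl, (Frm.refl _ _).update (by simp)⟩
  · rintro i hi s2 g0 ⟨g1, g2, g3⟩
    have hmod : i % n < n := Nat.mod_lt _ (by omega)
    obtain ⟨j, hj⟩ : ∃ j, n - i % n = j + 1 := ⟨n - i % n - 1, by omega⟩
    rw [hj] at g1
    refine (Tri.seq (t' := 4) (tri_right g1) ?_).cost (by omega)
    rintro s3 ⟨g4, k3⟩
    have hc3 : Len u (i / n) 0 (s3.z c) := k3.len (by simp [hbc.symm]) g2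
    have ha3 : s3.z a = s2.z a := k3.z (by simp [hab])
    rcases Nat.eq_zero_or_pos j with hj0 | hj0
    · -- wrap
      have hin : i % n + 1 = n := by omega
      have e1 : (i + 1) % n = 0 := by
        rw [Nat.add_mod]
        rcases Nat.lt_or_ge 1 n with h | h
        · rw [Nat.mod_eq_of_lt h, hin, Nat.mod_self]
        · have : n = 1 := by omega
          subst this
          simp [Nat.mod_one]
      have e2 : (i + 1) / n = i / n + 1 := by
        have h7 := Nat.div_add_mod i n
        have h8 : i + 1 = n * (i / n + 1) := by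
          rw [Nat.mul_add]
          omega
        rw [h8, Nat.mul_div_cancel_left _ (by omega)]
      refine (Tri.iteF (t := 3) ?_ ?_).cost (by omega)
      · rw [Store.reads, g4.peek_isSome]
        simp [hj0]
      · refine (Tri.seq (t' := 2) (tri_rew g4) ?_)
        rintro s4 ⟨g5, k4⟩
        refine (tri_put (k4.len (by simp [hbc.symm]) hc3)).post ?_
        rintro s5 ⟨g6, k5⟩
        refine ⟨?_, ?_, ?_, ?_⟩
        · rw [k5.z (by simp [hac]), k4.z (by simp [hab]), ha3]
        · rw [e1, Nat.sub_zero]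
          have e : i % n + 1 + j = n := by omega
          rw [e] at g5
          exact k5.len (by simp [hbc]) g5
        · rw [e2]
          exact g6
        · exact g3.trans ((k3.mono (by simp)).trans ((k4.mono (by simp)).trans
            (k5.mono (by simp))))
    · have hin : i % n + 1 < n := by omega
      have e1 : (i + 1) % n = i % n + 1 := by
        rw [Nat.add_mod, Nat.mod_eq_of_lt (show 1 < n by omega), Nat.mod_eq_of_lt hin]
      have e2 : (i + 1) / n = i / n := by
        have h7 := Nat.div_add_mod i n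
        have h8 : i + 1 = (i % n + 1) + n * (i / n) := by omega
        rw [h8, Nat.add_mul_div_left _ _ (by omega), Nat.div_eq_of_lt hin, Nat.zero_add]
      refine (Tri.iteT (t := 1) ?_ ?_).cost (by omega)
      · rw [Store.reads, g4.peek_isSome]
        simpa using hj0
      · refine Tri.of_run (run_nop s3.m s3.z) ⟨ha3, ?_, ?_, g3.trans (k3.mono (by simp))⟩
        · rw [e1]
          have e : n - (i % n + 1) = j := by omega
          rw [e]
          exact g4
        · rw [e2]
          exact hc3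
  · refine ⟨?_, ?_, k1.mono (by simp)⟩
    · simpa using hb1
    · simpa using hc1

variable {ρ : Type} [DecidableEq ρ] {j : ρ → F}

theorem rp_div (hj : Function.Injective j) {v : ρ → ℕ} {a b c : ρ} {m n : ℕ} (hab : a ≠ b)
    (hac : a ≠ c) (hbc : b ≠ c) (ha : v a = m) (hb : v b = n) (hn : 1 ≤ n) :
    RP (M := M) d u j (divU (j a) (j b) (j c) u) v (7 * m + 6) (update v c (m / n)) := by
  subst ha hb
  refine rp_of_tri hj [a, b, c] (fun s hs => ?_) ?_
  · refine (tri_divU (hj.ne hab) (hj.ne hac) (hj.ne hbc) hn (hs a) (hs b)).post ?_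
    rintro s' ⟨h1, h2, h3, h4⟩
    refine ⟨?_, h4⟩
    intro x hx
    simp only [List.mem_cons, List.not_mem_nil, or_false] at hx
    rcases hx with rfl | rfl | rfl
    · rw [Function.update_of_ne hac]
      exact h2
    · rw [Function.update_of_ne hbc]
      exact h3
    · rw [Function.update_self]
      exact h1
  · intro x hx
    simp only [List.mem_cons, List.not_mem_nil, or_false, not_or] at hx
    rw [Function.update_of_ne hx.2.2]

/-- `a := k` (the ruler `a` is empty before). -/
def constU (k : ℕ) (a : F) (u : α) : Prog M F α := .seq (rep k (put a u)) (op a .rew)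

theorem rp_const (hj : Function.Injective j) (k : ℕ) {v : ρ → ℕ} {a : ρ} (ha : v a = 0) :
    RP (M := M) d u j (constU k (j a) u) v (2 * k + 2) (update v a k) := by
  refine rp_of_tri hj [a] (fun s hs => ?_) ?_
  · have h0 := hs a
    rw [ha] at h0
    have h1 := Tri.rep (d := d) k (put (j a) u) (fun i s' => Len u i 0 (s'.z (j a)) ∧
      Keep [j a] s s') 2 (by
        rintro i hi s1 ⟨g1, g2⟩
        refine (tri_put g1).post ?_
        rintro s2 ⟨g3, g4⟩
        exact ⟨g3, g2.trans g4⟩) (s := s) ⟨h0, Keep.refl _ _⟩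
    refine (Tri.seq (t' := 1) h1 ?_).cost (by omega)
    rintro s1 ⟨g1, g2⟩
    refine (tri_rew g1).post ?_
    rintro s2 ⟨g3, g4⟩
    refine ⟨?_, g2.trans g4⟩
    intro x hx
    simp only [List.mem_cons, List.not_mem_nil, or_false] at hx
    subst hx
    rw [Function.update_self]
    simpa using g3
  · intro x hx
    simp only [List.mem_cons, List.not_mem_nil, or_false] at hx
    rw [Function.update_of_ne hx]

/-- `b := ⌊log2 |a|⌋` for `1 ≤ |a|`; `w`, `c`, `k` are scratch. -/
def lgU (a b w c k : F) (u : α) : Prog M F α :=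
  .seq (cpU a w u) (.seq (H778.Fp.logU w b c k u) (.seq (clr w) (.seq (clr c) (clr k))))

theorem rp_lg (hj : Function.Injective j) {v : ρ → ℕ} {a b w c k : ρ} {n : ℕ} (haw : a ≠ w)
    (hab : a ≠ b) (hac : a ≠ c) (hak : a ≠ k) (hwb : w ≠ b) (hwc : w ≠ c) (hwk : w ≠ k)
    (hbc : b ≠ c) (hbk : b ≠ k) (hck : c ≠ k) (ha : v a = n) (hn : 1 ≤ n) (hw : v w = 0)
    (hc : v c = 0) (hk : v k = 0) :
    RP (M := M) d u j (lgU (j a) (j b) (j w) (j c) (j k) u) v (20 * n * n + 44 * n + 16)
      (update v b (Nat.log 2 n)) := by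
  subst ha
  refine rp_of_tri hj [a, b, w, c, k] (fun s hs => ?_) ?_
  · refine (Tri.seq (t' := 20 * v a * v a + 40 * v a + 11)
      (tri_cpU (hj.ne haw) (hs a)) ?_).cost (by omega)
    rintro s1 ⟨h1, h2, k1⟩
    refine (Tri.seq (t' := 6) (H778.Fp.tri_logU (hj.ne hwb) (hj.ne hwc)
      (hj.ne hwk) (hj.ne hbc) (hj.ne hbk) (hj.ne hck) hn h1)
      ?_).cost (by omega)
    rintro s2 ⟨h3, k2⟩
    refine (Tri.seq (t' := 4) (tri_clr _ s2) ?_).cost (by omega)
    rintro s3 ⟨h4, k3⟩
    refine (Tri.seq (t' := 2) (tri_clr _ s3) ?_).cost (by omega)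
    rintro s4 ⟨h5, k4⟩
    refine (tri_clr _ s4).post ?_
    rintro s5 ⟨h6, k5⟩
    refine ⟨?_, ?_⟩
    · intro x hx
      simp only [List.mem_cons, List.not_mem_nil, or_false] at hx
      rcases hx with rfl | rfl | rfl | rfl | rfl
      · rw [Function.update_of_ne hab]
        exact k5.len (by simp [hj.eq_iff, hak]) (k4.len (by simp [hj.eq_iff, hac])
          (k3.len (by simp [hj.eq_iff, haw]) (k2.len (by simp [hj.eq_iff, haw, hab, hac, hak])
            h2)))
      · rw [Function.update_self]
        exact k5.len (by simp [hj.eq_iff, hbk]) (k4.len (by simp [hj.eq_iff, hbc])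
          (k3.len (by simp [hj.eq_iff, hwb.symm]) h3))
      · rw [Function.update_of_ne hwb, hw]
        exact k5.len (by simp [hj.eq_iff, hwk]) (k4.len (by simp [hj.eq_iff, hwc]) h4)
      · rw [Function.update_of_ne hbc.symm, hc]
        exact k5.len (by simp [hj.eq_iff, hck]) h5
      · rw [Function.update_of_ne hbk.symm, hk]
        exact h6
    · exact (k1.mono (by simp)).trans ((k2.mono (by simp)).trans ((k3.mono (by simp)).trans
        ((k4.mono (by simp)).trans (k5.mono (by simp)))))
  · intro x hx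
    simp only [List.mem_cons, List.not_mem_nil, or_false, not_or] at hx
    rw [Function.update_of_ne hx.2.1]

end Vale.Agent.P338.R2.H755.Bp
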