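import Vale.Agent.P338.R2.H784.Bp.Spec
import Vale.Agent.P338.R2.H968.Setup

/-!
P338, stage 3: the parameters of the batch multiplication: the files.
-/

namespace Vale.Agent.P338.R2.H755.Bp

open Vale.Agent.P338.R2.H898 Vale.Agent.P338.R2.H784 Vale.Agent.P338.R2.H968
open Vale.Agent.P338.R2.H778 (bits)
open Vale.Agent.P338.R2.H784.Bp (gB dB bB padB jB)

/-- The files of the computation of the parameters. Input rulers: `wd` (length `W`), `nr`
(length `n`). Output rulers: `g`, `b`, `pd`, `D`, `J2 = 2 D - 1`, `J`, `Q = q - 1`. Output words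
(of `b` bits): `om`, `nu`, `iv`, `m = q ^ 4`, `mum = 2 ^ b / m + 1`. The others are scratch files
(empty before and after). -/
inductive PF
  | wd | nr | g | b | pd | D | J2 | J | Q | om | nu | iv | m | mum
  | s (i : Fin 16)
  deriving DecidableEq

/-- The files before. -/
def parI {α : Type} (u : α) (W n : ℕ) : PF → Zip α
  | .wd => ⟨[], List.replicate W u⟩
  | .nr => ⟨[], List.replicate n u⟩
  | _ => ⟨[], []⟩

/-- The files afterwards. -/
def parO {α : Type} (u : α) (bit : Bool → α) (W n q om nu iv : ℕ) : PF → Zip α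
  | .wd => ⟨[], List.replicate W u⟩
  | .nr => ⟨[], List.replicate n u⟩
  | .g => ⟨[], List.replicate (gB W) u⟩
  | .b => ⟨[], List.replicate (bB W) u⟩
  | .pd => ⟨[], List.replicate (padB W) u⟩
  | .D => ⟨[], List.replicate (dB W) u⟩
  | .J2 => ⟨[], List.replicate (2 * dB W - 1) u⟩
  | .J => ⟨[], List.replicate (jB W n) u⟩
  | .Q => ⟨[], List.replicate (q - 1) u⟩
  | .om => ⟨[], (bits (bB W) om).map bit⟩
  | .nu => ⟨[], (bits (bB W) nu).map bit⟩
  | .iv => ⟨[], (bits (bB W) iv).map bit⟩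
  | .m => ⟨[], (bits (bB W) (q ^ 4)).map bit⟩
  | .mum => ⟨[], (bits (bB W) (2 ^ bB W / q ^ 4 + 1)).map bit⟩
  | .s _ => ⟨[], []⟩

end Vale.Agent.P338.R2.H755.Bp
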