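import Vale.Agent.P338.R2.H755.Bp.Rulers

/-!
P338, stage 3: the parameters of the batch multiplication: emptying the files.
-/

namespace Vale.Agent.P338.R2.H755.Bp

open Vale.Agent.P338.R2.H898 Vale.Agent.P338.R2.H784
open Vale.Agent.P338.R2.H778.Fp (clrs)
open Function (update)

set_option linter.unusedSectionVars false

variable {M F α : Type} [DecidableEq F] {d u : α}

theorem run_clrs {ρ : Type} {j : ρ → F} (hj : Function.Injective j) [DecidableEq ρ] (L : List ρ)
    (m : M) {z : F → Zip α} {v : ρ → Zip α} (hz : ∀ x, z (j x) = v x) :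
    Prog.Run d (clrs j L) ⟨m, z⟩ (2 * L.length + 1)
      ⟨m, Function.extend j (fun x => if x ∈ L then ⟨[], []⟩ else v x) z⟩ := by
  induction L generalizing z v with
  | nil =>
    have h := run_nop (d := d) m z
    have e : Function.extend j (fun x => if x ∈ ([] : List ρ) then ⟨[], []⟩ else v x) z = z := by
      funext f
      by_cases hf : ∃ x, j x = f
      · obtain ⟨x, rfl⟩ := hf
        rw [hj.extend_apply]
        simp [hz x]
      · rw [Function.extend_apply' _ _ _ hf]
    rw [e]
    exact h
  | cons y L ih =>
    have h1 := run_clr (d := d) (j y) m z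
    have h2 := ih (z := update z (j y) ⟨[], []⟩) (v := update v y ⟨[], []⟩) (by
      intro x
      by_cases hx : x = y
      · subst hx
        simp
      · rw [Function.update_of_ne (hj.ne hx), Function.update_of_ne hx, hz x])
    have h3 := h1.seq h2
    have e : Function.extend j (fun x => if x ∈ L then ⟨[], []⟩ else update v y ⟨[], []⟩ x)
        (update z (j y) ⟨[], []⟩) =
        Function.extend j (fun x => if x ∈ y :: L then ⟨[], []⟩ else v x) z := by
      funext f
      by_cases hf : ∃ x, j x = f
      · obtain ⟨x, rfl⟩ := hf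
        rw [hj.extend_apply, hj.extend_apply]
        by_cases hx : x = y
        · subst hx
          simp
        · simp [hx]
      · rw [Function.extend_apply' _ _ _ hf, Function.extend_apply' _ _ _ hf,
          Function.update_of_ne (fun h => hf ⟨y, h.symm⟩)]
    rw [e] at h3
    exact h3.mono (by rw [List.length_cons]; omega)

/-- The outputs are emptied. -/
def unpar (j : PF → F) : Prog M F α :=
  clrs j [.g, .b, .pd, .D, .J2, .J, .Q, .om, .nu, .iv, .m, .mum]

theorem run_unpar {j : PF → F} (hj : Function.Injective j) {bit : Bool → α} {W n q om nu iv : ℕ}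
    {m : M} {z : F → Zip α} (hz : ∀ x, z (j x) = parO u bit W n q om nu iv x) :
    Prog.Run d (unpar j) ⟨m, z⟩ 25 ⟨m, Function.extend j (parI u W n) z⟩ := by
  have h := run_clrs (d := d) hj [.g, .b, .pd, .D, .J2, .J, .Q, .om, .nu, .iv, .m, .mum] m hz
  have e : (fun x => if x ∈ ([.g, .b, .pd, .D, .J2, .J, .Q, .om, .nu, .iv, .m, .mum] : List PF)
      then ⟨[], []⟩ else parO u bit W n q om nu iv x) = parI u W n := by
    funext x
    cases x <;> simp [parO, parI]
  rw [e] at h
  exact h

/-- Two injections. -/
theorem extend_extend {ρ σ β : Type} {i : σ → ρ} {j : ρ → F} (hi : Function.Injective i)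
    (hj : Function.Injective j) (f : σ → β) (g : ρ → β) (z : F → β) :
    Function.extend (fun x => j (i x)) f (Function.extend j g z) =
      Function.extend j (Function.extend i f g) z := by
  have hji : Function.Injective fun x => j (i x) := hj.comp hi
  funext y
  by_cases hy : ∃ x, j x = y
  · obtain ⟨x, rfl⟩ := hy
    rw [hj.extend_apply]
    by_cases hx : ∃ w, i w = x
    · obtain ⟨w, rfl⟩ := hx
      exact (hji.extend_apply f _ w).trans (hi.extend_apply f g w).symm
    · rw [Function.extend_apply' _ _ _ hx, Function.extend_apply' _ _ _ (by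
        rintro ⟨w, hw⟩
        exact hx ⟨w, hj hw⟩), hj.extend_apply]
  · rw [Function.extend_apply' _ _ _ hy, Function.extend_apply' _ _ _ (by
      rintro ⟨w, hw⟩
      exact hy ⟨_, hw⟩), Function.extend_apply' _ _ _ hy]

end Vale.Agent.P338.R2.H755.Bp
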