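import Vale.Agent.P338.R2.H784.Bp.Goals
import Vale.Agent.P338.R2.H755.Bp.Unpar

/-!
P338, stage 3: the parameters of the batch multiplication: the files of the machine.
-/

namespace Vale.Agent.P338.R2.H755.Bp

open Vale.Agent.P338.R2.H898 Vale.Agent.P338.R2.H784 Vale.Agent.P338.R2.H784.Fp
open Vale.Agent.P338.R2.H784.Bp
open Vale.Agent.P338.R2.H968.CallEnv (mem0 callC)
open Vale.Agent.P338.R2.H778.Fp (clrs)
open Function (update)

set_option linter.unusedSectionVars false
set_option linter.constructorNameAsVariable false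

/-- The files of the machine. -/
def jP {T T₀ Y : Type} : PF → LG T T₀ Y
  | .wd => og (.r .wd)
  | .nr => og .nr
  | .g => ng (.r .g)
  | .b => ng (.r .b)
  | .pd => ng (.r .pd)
  | .D => ng (.r .D)
  | .J2 => ng (.r .J2)
  | .J => ng (.r .J)
  | .Q => ng (.r .Q2)
  | .om => ng (.w .om)
  | .nu => ng (.w .nu)
  | .iv => ng (.w .iv)
  | .m => ng (.w .m)
  | .mum => ng (.w .mum)
  | .s i => ng (.h (Fin.castLE (by decide) i))

theorem jP_inj {T T₀ Y : Type} : Function.Injective (jP (T := T) (T₀ := T₀) (Y := Y)) := by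
  intro a b h
  cases a <;> cases b <;> simp_all [jP]

variable {A A₀ : MTM} {Y : Type}

/-- All outputs are written. -/
theorem extend_parO {W n q om nu iv : ℕ} {S : ZS (Al A A₀)} (hW : S.r .wd = W) (hn : S.n = n) :
    Function.extend jP (parO .u bt W n q om nu iv)
      (z2 (T := A.Tape) (T₀ := A₀.Tape) (Y := Y) .u S (bN A A₀)) =
      z2 .u S (bZ A A₀ W n q om nu iv ⟨[], []⟩ ⟨[], []⟩ ⟨[], []⟩ ⟨[], []⟩) := by
  subst hW hn
  funext f
  by_cases hf : ∃ x, jP x = f
  · obtain ⟨x, rfl⟩ := hf
    rw [jP_inj.extend_apply]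
    cases x <;> rfl
  · rw [Function.extend_apply' _ _ _ hf]
    rcases f with f | f | f
    · rfl
    · cases f
      case r k =>
        cases k
        case N => rfl
        case N2 => rfl
        case g => exact absurd ⟨.g, rfl⟩ hf
        case b => exact absurd ⟨.b, rfl⟩ hf
        case pd => exact absurd ⟨.pd, rfl⟩ hf
        case D => exact absurd ⟨.D, rfl⟩ hf
        case J2 => exact absurd ⟨.J2, rfl⟩ hf
        case J => exact absurd ⟨.J, rfl⟩ hf
        case Q2 => exact absurd ⟨.Q, rfl⟩ hf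
      case w k =>
        cases k
        case om => exact absurd ⟨.om, rfl⟩ hf
        case nu => exact absurd ⟨.nu, rfl⟩ hf
        case iv => exact absurd ⟨.iv, rfl⟩ hf
        case m => exact absurd ⟨.m, rfl⟩ hf
        case mum => exact absurd ⟨.mum, rfl⟩ hf
        case s => rfl
      all_goals rfl
    · rfl

/-- The files before. -/
theorem z2_parI {S : ZS (Al A A₀)} (x : PF) :
    z2 (T := A.Tape) (T₀ := A₀.Tape) (Y := Y) .u S (bN A A₀) (jP x) =
      parI .u (S.r .wd) S.n x := by
  cases x <;> rfl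

variable [DecidableEq (LG A.Tape A₀.Tape Y)]

theorem unparOK : UnparOK (A := A) (A₀ := A₀) (Y := Y) (unpar jP) 25 := by
  intro W n q om nu iv S
  have h := run_clrs (d := dd A A₀) (jP_inj (T := A.Tape) (T₀ := A₀.Tape) (Y := Y))
    [.g, .b, .pd, .D, .J2, .J, .Q, .om, .nu, .iv, .m, .mum] (mem0 A, mem0 A₀)
    (z := z2 .u S (bZ A A₀ W n q om nu iv ⟨[], []⟩ ⟨[], []⟩ ⟨[], []⟩ ⟨[], []⟩)) (fun x => rfl)
  have e : Function.extend jP (fun x => if x ∈ ([.g, .b, .pd, .D, .J2, .J, .Q, .om, .nu, .iv, .m,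
      .mum] : List PF) then ⟨[], []⟩ else
      z2 (T := A.Tape) (T₀ := A₀.Tape) (Y := Y) .u S (bZ A A₀ W n q om nu iv ⟨[], []⟩ ⟨[], []⟩ ⟨[], []⟩ ⟨[], []⟩) (jP x))
      (z2 .u S (bZ A A₀ W n q om nu iv ⟨[], []⟩ ⟨[], []⟩ ⟨[], []⟩ ⟨[], []⟩)) =
      z2 (T := A.Tape) (T₀ := A₀.Tape) (Y := Y) .u S (bN A A₀) := by
    funext f
    by_cases hf : ∃ x, jP x = f
    · obtain ⟨x, rfl⟩ := hf
      rw [jP_inj.extend_apply]
      cases x
      case wd => rfl
      case nr => rfl
      case s => rfl
      all_goals simp [jP, z2, bstY, bstN, bN, ru]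
    · rw [Function.extend_apply' _ _ _ hf]
      rcases f with f | f | f
      · rfl
      · cases f
        case r k =>
          cases k
          case N => rfl
          case N2 => rfl
          case g => exact absurd ⟨.g, rfl⟩ hf
          case b => exact absurd ⟨.b, rfl⟩ hf
          case pd => exact absurd ⟨.pd, rfl⟩ hf
          case D => exact absurd ⟨.D, rfl⟩ hf
          case J2 => exact absurd ⟨.J2, rfl⟩ hf
          case J => exact absurd ⟨.J, rfl⟩ hf
          case Q2 => exact absurd ⟨.Q, rfl⟩ hf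
        case w k =>
          cases k
          case om => exact absurd ⟨.om, rfl⟩ hf
          case nu => exact absurd ⟨.nu, rfl⟩ hf
          case iv => exact absurd ⟨.iv, rfl⟩ hf
          case m => exact absurd ⟨.m, rfl⟩ hf
          case mum => exact absurd ⟨.mum, rfl⟩ hf
          case s => rfl
        all_goals rfl
      · rfl
  rw [e] at h
  exact h

end Vale.Agent.P338.R2.H755.Bp
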