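import Vale.Agent.P338.R2.H755.Bp.Div
import Vale.Agent.P338.R2.H755.Bp.Files

/-!
P338, stage 3: the parameters of the batch multiplication: the rulers.
-/

namespace Vale.Agent.P338.R2.H755.Bp

open Vale.Agent.P338.R2.H898 Vale.Agent.P338.R2.H784 Vale.Agent.P338.R2.H968
open Vale.Agent.P338.R2.H778.Fp (RL RP rp_inc' rp_dec' rp_diff' rp_mul' rp_clr rp_clrs clrs)
open Vale.Agent.P338.R2.H784.Bp (gB dB bB padB jB)
open Function (update)

set_option linter.unusedSectionVars false

variable {M F α : Type} [DecidableEq F] {d u : α}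

/-- All files are rulers. -/
def rv {ρ α : Type} (u : α) (v : ρ → ℕ) : ρ → Zip α := fun x => ⟨[], List.replicate (v x) u⟩

theorem run_of_rp {ρ : Type} [DecidableEq ρ] {j : ρ → F} (hj : Function.Injective j)
    {p : Prog M F α} {v v' : ρ → ℕ} {c : ℕ} (h : RP d u j p v c v') {m : M} {z : F → Zip α}
    (hz : ∀ x, z (j x) = ⟨[], List.replicate (v x) u⟩) :
    Prog.Run d p ⟨m, z⟩ c ⟨m, Function.extend j (rv u v') z⟩ := by
  obtain ⟨s', h1, h2, h3, h4⟩ := h ⟨m, z⟩ (fun x => hz x)
  have e : s' = ⟨m, Function.extend j (rv u v') z⟩ := by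
    rcases s' with ⟨m', z'⟩
    obtain rfl : m' = m := h3
    congr 1
    funext f
    by_cases hf : ∃ x, j x = f
    · obtain ⟨x, rfl⟩ := hf
      rw [hj.extend_apply]
      exact h2 x
    · rw [Function.extend_apply' _ _ _ hf]
      exact h4 f (fun x h => hf ⟨x, h.symm⟩)
  rw [e] at h1
  exact h1

/-- The rulers at the beginning. -/
def v0 (W n : ℕ) : PF → ℕ
  | .wd => W
  | .nr => n
  | _ => 0

/-- The rulers at the end. -/
def v1 (W n : ℕ) : PF → ℕ
  | .wd => W
  | .nr => n
  | .g => gB W
  | .b => bB W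
  | .pd => padB W
  | .D => dB W
  | .J2 => 2 * dB W - 1
  | .J => jB W n
  | _ => 0

/-- The rulers after the first part. -/
def vA (W n : ℕ) : PF → ℕ
  | .wd => W
  | .nr => n
  | .g => gB W
  | .b => bB W
  | .D => dB W
  | .s i => if i = 0 then 20 else 0
  | _ => 0

/-- The rulers after the second part. -/
def vB (W n : ℕ) : PF → ℕ
  | .wd => W
  | .nr => n
  | .g => gB W
  | .b => bB W
  | .pd => padB W
  | .D => dB W
  | .s i => if i = 0 then 20 else if i = 1 then gB W * dB W else 0
  | _ => 0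

def progA (j : PF → F) (u : α) : Prog M F α :=
  .seq (lgU (j .wd) (j .g) (j (.s 0)) (j (.s 1)) (j (.s 2)) u) (.seq (incU (j .g) u)
    (.seq (constU 20 (j (.s 0)) u) (.seq (mulU (j (.s 0)) (j .g) (j .b) u)
    (.seq (divU (j .wd) (j .g) (j .D) u) (incU (j .D) u)))))

def progB (j : PF → F) (u : α) : Prog M F α :=
  .seq (mulU (j .g) (j .D) (j (.s 1)) u) (diffU (j (.s 1)) (j .wd) (j .pd) u)

def progC (j : PF → F) (u : α) : Prog M F α :=
  .seq (clr (j (.s 1))) (.seq (constU 2 (j (.s 1)) u) (.seq (mulU (j (.s 1)) (j .D) (j .J2) u)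
    (.seq (decU (j .J2)) (.seq (constU 400 (j (.s 2)) u)
    (.seq (mulU (j (.s 2)) (j .wd) (j (.s 1)) u) (.seq (divU (j .nr) (j (.s 1)) (j .J) u)
    (clrs j [.s 0, .s 1, .s 2])))))))

/-- The rulers. -/
def progR (j : PF → F) (u : α) : Prog M F α := .seq (progA j u) (.seq (progB j u) (progC j u))

theorem gB_pos (W : ℕ) : 1 ≤ gB W := Nat.succ_le_succ (Nat.zero_le _)

theorem dB_pos (W : ℕ) : 1 ≤ dB W := Nat.succ_le_succ (Nat.zero_le _)

theorem gB_mul_dB (W : ℕ) : W ≤ gB W * dB W := by
  unfold dB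
  have h1 := Nat.div_add_mod W (gB W)
  have h2 : W % gB W < gB W := Nat.mod_lt _ (gB_pos W)
  rw [Nat.mul_add]
  omega

theorem gB_mul_dB_le (W : ℕ) : gB W * dB W ≤ W + gB W := by
  unfold dB
  have h1 := Nat.div_add_mod W (gB W)
  rw [Nat.mul_add]
  omega

theorem gB_le (W : ℕ) : gB W ≤ W + 1 := by
  unfold gB
  have := Nat.log_le_self 2 W
  omega

theorem dB_le (W : ℕ) : dB W ≤ W + 1 := by
  unfold dB
  have := Nat.div_le_self W (gB W)
  omega

theorem rp_progA {j : PF → F} (hj : Function.Injective j) {W n : ℕ} (hW : 1 ≤ W) :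
    RP (M := M) d u j (progA j u) (v0 W n) (20 * W * W + 200 * W + 500) (vA W n) := by
  have hg := gB_pos W
  have hgW := gB_le W
  have hdp := dB_pos W
  have hdW := dB_le W
  have eg : Nat.log 2 W + 1 = gB W := rfl
  have ed : W / gB W + 1 = dB W := rfl
  have r := (rp_lg (M := M) (d := d) (u := u) hj (v := v0 W n) (a := .wd) (b := .g) (w := .s 0)
      (c := .s 1) (k := .s 2) (n := W) (by decide) (by decide) (by decide) (by decide) (by decide)
      (by decide) (by decide) (by decide) (by decide) (by decide) rfl hW rfl rfl rfl).seq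
    ((rp_inc' hj (a := .g) (n := Nat.log 2 W) (by simp)).seq
    ((rp_const hj 20 (a := .s 0) (by simp [v0])).seq
    ((rp_mul' hj (a := .s 0) (b := .g) (c := .b) (m := 20) (n := gB W) (by decide) (by decide)
      (by decide) (by simp) (by simp [gB])).seq
    ((rp_div hj (a := .wd) (b := .g) (c := .D) (m := W) (n := gB W) (by decide) (by decide)
      (by decide) (by simp [v0]) (by simp [gB]) hg).seq
    (rp_inc' hj (a := .D) (n := W / gB W) (by simp))))))
  refine r.mono ?_ ?_
  · funext x
    cases x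
    case s i =>
      by_cases h0 : i = 0
      · simp [h0, vA]
      · simp [h0, vA, v0]
    all_goals simp [v0, vA, gB, dB, bB]
  · have hl : Nat.log 2 W ≤ W := Nat.log_le_self 2 W
    have hdd : W / gB W ≤ W := Nat.div_le_self _ _
    omega

theorem rp_progB {j : PF → F} (hj : Function.Injective j) {W n : ℕ} :
    RP (M := M) d u j (progB j u) (vA W n) (20 * W + 50) (vB W n) := by
  have hg := gB_pos W
  have hgW := gB_le W
  have hdp := dB_pos W
  have hd1 := gB_mul_dB W
  have hd2 := gB_mul_dB_le W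
  have hdW := dB_le W
  have r := (rp_mul' (M := M) (d := d) (u := u) hj (v := vA W n) (a := .g) (b := .D) (c := .s 1)
      (m := gB W) (n := dB W) (by decide) (by decide) (by decide) rfl rfl).seq
    (rp_diff' hj (a := .s 1) (b := .wd) (c := .pd) (m := gB W * dB W) (n := W) (by decide)
      (by decide) (by decide) (by simp) (by simp [vA]) hd1)
  refine r.mono ?_ ?_
  · funext x
    cases x
    case s i =>
      by_cases h0 : i = 0
      · simp [h0, vA, vB]
      · by_cases h1 : i = 1
        · simp [h1, vB]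
        · simp [h0, h1, vA, vB]
    all_goals simp [vA, vB, padB]
  · omega

theorem rp_progC {j : PF → F} (hj : Function.Injective j) {W n : ℕ} (hW : 1 ≤ W) :
    RP (M := M) d u j (progC j u) (vB W n) (2000 * W + 7 * n + 5000) (v1 W n) := by
  have hdp := dB_pos W
  have hdW := dB_le W
  have r := (rp_clr (M := M) (d := d) (u := u) hj (v := vB W n) (.s 1)).seq
    ((rp_const hj 2 (a := .s 1) (by simp)).seq
    ((rp_mul' hj (a := .s 1) (b := .D) (c := .J2) (m := 2) (n := dB W) (by decide)
      (by decide) (by decide) (by simp) (by simp [vB])).seq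
    ((rp_dec' hj (a := .J2) (n := 2 * dB W - 1) (by simp; omega)).seq
    ((rp_const hj 400 (a := .s 2) (by simp [vB])).seq
    ((rp_mul' hj (a := .s 2) (b := .wd) (c := .s 1) (m := 400) (n := W) (by decide)
      (by decide) (by decide) (by simp) (by simp [vB])).seq
    ((rp_div hj (a := .nr) (b := .s 1) (c := .J) (m := n) (n := 400 * W) (by decide)
      (by decide) (by decide) (by simp [vB]) (by simp) (by omega)).seq
    (rp_clrs hj [.s 0, .s 1, .s 2] _)))))))
  refine r.mono ?_ ?_
  · funext x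
    cases x
    case s i =>
      by_cases h0 : i = 0
      · simp [h0, v1]
      · by_cases h1 : i = 1
        · simp [h1, v1]
        · by_cases h2 : i = 2
          · simp [h2, v1]
          · simp [h0, h1, h2, v1, vB]
    all_goals simp [vB, v1, jB]
  · simp only [List.length_cons, List.length_nil]
    omega

theorem rp_progR {j : PF → F} (hj : Function.Injective j) {W n : ℕ} (hW : 1 ≤ W) :
    RP (M := M) d u j (progR j u) (v0 W n) (20 * W * W + 2400 * W + 7 * n + 6000)
      (v1 W n) :=
  ((rp_progA hj hW).seq ((rp_progB hj).seq (rp_progC hj hW))).mono rfl (by omega)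

theorem run_progR {j : PF → F} (hj : Function.Injective j) {W n : ℕ} (hW : 1 ≤ W) {m : M}
    {z : F → Zip α} (hz : ∀ x, z (j x) = parI u W n x) :
    Prog.Run d (progR j u) ⟨m, z⟩ (20 * W * W + 2400 * W + 7 * n + 6000)
      ⟨m, Function.extend j (rv u (v1 W n)) z⟩ := by
  refine run_of_rp hj (rp_progR hj hW) (fun x => ?_)
  rw [hz x]
  cases x <;> rfl

end Vale.Agent.P338.R2.H755.Bp
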